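import Vale.Agent.P078.Local.Meas.Proj
import Vale.Agent.P078.Local.Def.Exact
import Vale.Agent.P078.Local.Iface

/-!
# The colour depends measurably on the entries
-/

noncomputable section

namespace Vale.Agent.P078.Local

open scoped RealInnerProductSpace Topology

variable {Ω : Type*} [MeasurableSpace Ω]

section vec

variable {r : ℕ}

/-- All coordinates are measurable. -/
def MCoord (F : Ω → EuclideanSpace ℝ (Fin r)) : Prop := ∀ c, Measurable fun w => F w c

theorem MCoord.inner {F G : Ω → EuclideanSpace ℝ (Fin r)} (hF : MCoord F) (hG : MCoord G) :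
    Measurable fun w => ⟪F w, G w⟫ := by
  simp only [PiLp.inner_apply, RCLike.inner_apply, conj_trivial]
  exact Finset.measurable_sum _ fun c _ => (hG c).mul (hF c)

theorem MCoord.projFn : ∀ (bs : List (Ω → EuclideanSpace ℝ (Fin r))), (∀ b ∈ bs, MCoord b) →
    ∀ {F : Ω → EuclideanSpace ℝ (Fin r)}, MCoord F →
      MCoord fun w => Local.projFn (bs.map fun b => b w) (F w)
  | [], _, F, hF => by simpa [Local.projFn] using hF
  | b :: bs, hb, F, hF => by
    have hu := MCoord.projFn bs (fun b' h => hb b' (List.mem_cons_of_mem _ h))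
      (hb b List.mem_cons_self)
    have hw := MCoord.projFn bs (fun b' h => hb b' (List.mem_cons_of_mem _ h)) hF
    intro c
    simp only [List.map_cons, Local.projFn, PiLp.sub_apply, PiLp.smul_apply, smul_eq_mul]
    exact (hw c).sub (((hu.inner hw).div (hu.inner hu)).mul (hu c))

theorem MCoord.measurableSet_ne_zero {F : Ω → EuclideanSpace ℝ (Fin r)} (hF : MCoord F) :
    MeasurableSet {w | F w ≠ 0} := by
  have : {w | F w ≠ 0} = ⋃ c, {w | F w c ≠ 0} := by
    ext w
    simp only [Set.mem_ofPred_eq, Set.mem_iUnion]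
    constructor
    · intro h
      by_contra hc
      exact h (PiLp.ext fun c => by simpa using not_exists.1 hc c)
    · rintro ⟨c, hc⟩ h
      exact hc (by simp [h])
  rw [this]
  exact MeasurableSet.iUnion fun c => (hF c (measurableSet_singleton 0)).compl

open Classical in
/-- The normalised first nonzero vector of a list. -/
theorem MCoord.find : ∀ (js : List (Fin r)) (V : Ω → Fin r → EuclideanSpace ℝ (Fin r)),
    (∀ j, MCoord fun w => V w j) →
    MCoord fun w => match js.find? (fun j => decide (V w j ≠ 0)) with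
      | some j => ‖V w j‖⁻¹ • V w j
      | none => 0
  | [], V, _ => fun c => by simp
  | j :: js, V, hV => by
    intro c
    have hn : Measurable fun w => ‖V w j‖⁻¹ := by
      simp only [norm_eq_sqrt_real_inner]
      exact (Real.continuous_sqrt.measurable.comp ((hV j).inner (hV j))).inv
    have hm : Measurable fun w => if V w j ≠ 0 then ‖V w j‖⁻¹ * V w j c else
        (match js.find? (fun j => decide (V w j ≠ 0)) with
          | some j => ‖V w j‖⁻¹ • V w j
          | none => 0 : EuclideanSpace ℝ (Fin r)) c :=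
      Measurable.ite (hV j).measurableSet_ne_zero (hn.mul (hV j c)) (MCoord.find js V hV c)
    convert hm using 1
    funext w
    by_cases h : V w j ≠ 0
    · simp [h]
    · simp [h]

/-- The picked direction is measurable in the rows. -/
theorem MCoord.pickDir (L : Finset (Fin r)) {rows : Ω → Fin 3 × Bool → Fin r → ℝ}
    (hrows : ∀ k c, Measurable fun w => rows w k c) (π : Equiv.Perm (Fin r)) :
    MCoord fun w => Local.pickDir L (rows w) π := by
  classical
  simp only [Local.pickDir, starProjection_dirSpace]
  refine MCoord.find _ (fun w j => Local.projFn (dirRows L (rows w))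
    (EuclideanSpace.single (π j) (1 : ℝ))) fun j => ?_
  have hmap : ∀ w, dirRows L (rows w) =
      (((Lᶜ.toList.map fun c (_ : Ω) => EuclideanSpace.single c (1 : ℝ)) :
          List (Ω → EuclideanSpace ℝ (Fin r)))
        ++ (fun _ : Ω => WithLp.toLp 2 (fun _ : Fin r => (1 : ℝ)))
          :: ((Finset.univ : Finset (Fin 3 × Bool)).toList.map fun k w => WithLp.toLp 2 (rows w k))).map
        fun b => b w := fun w => by
    simp [dirRows, Function.comp_def]
  simp only [hmap]
  refine MCoord.projFn _ (fun b hb => ?_) fun c => measurable_const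
  rcases List.mem_append.1 hb with hb | hb
  · obtain ⟨c, -, rfl⟩ := List.mem_map.1 hb
    exact fun _ => measurable_const
  rcases List.mem_cons.1 hb with rfl | hb
  · exact fun _ => measurable_const
  · obtain ⟨k, -, rfl⟩ := List.mem_map.1 hb
    exact fun c => by simpa using hrows k c

end vec

section slice

variable {α : Type*} [Fintype α] [DecidableEq α] {r : ℕ}
  {h : Ω → α → Fin r → ℝ} {x : Ω → α → α → ℂ}

omit [Fintype α] in
theorem measurable_q (T : Finset α) (hh : ∀ l c, Measurable fun w => h w l c)
    (hx : ∀ l u, Measurable fun w => x w l u) (z : α → ℂ) :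
    Measurable fun w => q T (h w) z (x w) := by
  simp only [q, Matrix.det_apply']
  refine Finset.measurable_sum _ fun c _ => ?_
  refine (Finset.measurable_prod _ fun l _ => Complex.measurable_ofReal.comp (hh l.1 (c l))).mul ?_
  refine Finset.measurable_sum _ fun π _ => measurable_const.mul ?_
  refine Finset.measurable_prod _ fun l _ => ?_
  simp only [colMatrix]
  by_cases hc : c (π l) = c l
  · simp only [if_pos hc]
    exact measurable_const.sub (hx _ _)
  · simp only [if_neg hc]
    exact measurable_const.sub measurable_const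

omit [Fintype α] in
theorem measurable_qR (T : Finset α) (hh : ∀ l c, Measurable fun w => h w l c)
    (hx : ∀ l u, Measurable fun w => x w l u) (Z : α → ℝ) :
    Measurable fun w => qR T (h w) Z (x w) :=
  Complex.measurable_re.comp (measurable_q T hh hx (ofR Z))

omit [Fintype α] in
theorem measurable_Phi (T : Finset α) (hh : ∀ l c, Measurable fun w => h w l c)
    (hx : ∀ l u, Measurable fun w => x w l u) (Z : α → ℝ) (l : α) :
    Measurable fun w => Phi T (h w) Z (x w) l :=
  (measurable_qR _ hh hx Z).div (measurable_qR _ hh hx Z)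

omit [Fintype α] in
theorem measurable_Irow (T : Finset α) (hh : ∀ l c, Measurable fun w => h w l c)
    (hx : ∀ l u, Measurable fun w => x w l u) (Z : α → ℝ) (l : α) :
    Measurable fun w => Irow T (h w) Z (x w) l := by
  simp only [Irow]
  refine Finset.measurable_sum _ fun u _ => ?_
  simp only [W]
  by_cases hlu : l = u
  · simp only [if_pos hlu]
    exact (measurable_Phi T hh hx Z l).pow_const 2
  · simp only [if_neg hlu]
    exact (((measurable_qR _ hh hx Z).mul (measurable_qR _ hh hx Z)).sub
      ((measurable_qR _ hh hx Z).mul (measurable_qR _ hh hx Z))).div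
      ((measurable_qR _ hh hx Z).pow_const 2)

omit [Fintype α] in
theorem measurable_m (T : Finset α) (hh : ∀ l c, Measurable fun w => h w l c)
    (hx : ∀ l u, Measurable fun w => x w l u) (Z : α → ℝ) (l : α) (c : Fin r) :
    Measurable fun w => m T l (h w) c Z (x w) := by
  refine Measurable.div (Measurable.neg (measurable_qR _ ?_ hx _)) (measurable_qR _ hh hx Z)
  intro u d
  rcases eq_or_ne u l with rfl | hne
  · simp [Local.pure]
  · simp only [Local.pure, Function.update_of_ne hne]
    exact hh u d

theorem measurableSet_valid (T : Finset α) (hh : ∀ l c, Measurable fun w => h w l c)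
    (hx : ∀ l u, Measurable fun w => x w l u) (hherm : ∀ w, IsHerm (x w)) (Z : α → ℝ) :
    MeasurableSet {w | Valid T (h w) Z (x w)} := by
  have hg : Measurable fun w => ((h w, x w) : (α → Fin r → ℝ) × (α → α → ℂ)) :=
    (measurable_pi_iff.2 fun l => measurable_pi_iff.2 (hh l)).prodMk
      (measurable_pi_iff.2 fun l => measurable_pi_iff.2 (hx l))
  have hclosed : ∀ n : ℕ, IsClosed {v : (α → Fin r → ℝ) × (α → α → ℂ) |
      ∃ t ∈ Set.Icc (0 : ℝ) n, q T v.1 (ofR fun u => Z u + t) v.2 = 0} := by
    intro n
    have : CompactSpace (Set.Icc (0 : ℝ) (n : ℝ)) := isCompact_iff_compactSpace.1 isCompact_Icc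
    have hc : Continuous fun y : ((α → Fin r → ℝ) × (α → α → ℂ)) × (Set.Icc (0 : ℝ) (n : ℝ)) =>
        q T y.1.1 (ofR fun u => Z u + (y.2 : ℝ)) y.1.2 := by
      simp only [q]
      refine continuous_finsetSum _ fun c _ => Continuous.mul ?_ (Continuous.matrix_det ?_)
      · exact continuous_finsetProd _ fun l _ => by fun_prop
      · refine continuous_matrix fun a b => ?_
        simp only [colMatrix, ofR]
        split_ifs <;> fun_prop
    convert isClosedMap_fst_of_compactSpace _ (isClosed_eq hc continuous_const) using 1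
    ext v
    simp only [Set.mem_ofPred_eq, Set.mem_image]
    constructor
    · rintro ⟨t, ht, h0⟩; exact ⟨(v, ⟨t, ht⟩), h0, rfl⟩
    · rintro ⟨⟨v', t⟩, h0, rfl⟩; exact ⟨t, t.2, h0⟩
  have heq : {w | Valid T (h w) Z (x w)} = (⋃ n : ℕ, (fun w => (h w, x w)) ⁻¹'
      {v : (α → Fin r → ℝ) × (α → α → ℂ) |
        ∃ t ∈ Set.Icc (0 : ℝ) n, q T v.1 (ofR fun u => Z u + t) v.2 = 0})ᶜ := by
    ext w
    simp only [Set.mem_ofPred_eq, valid_iff, hherm w, true_and, Set.mem_compl_iff, Set.mem_iUnion,
      Set.mem_preimage, not_exists, not_and]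
    constructor
    · intro hv n t ht; exact hv t ht.1
    · intro hv t ht
      obtain ⟨n, hn⟩ := exists_nat_ge t
      exact hv n t ⟨ht, hn⟩
  rw [heq]
  exact (MeasurableSet.iUnion fun n => hg (hclosed n).measurableSet).compl

end slice

section rule

variable {α : Type*} [Fintype α] [DecidableEq α] {p : Par} {N : Ω → Net α p.D}
  {nb : α → Finset α}

/-- The laws and snapshots are measurable. -/
def MSt (F : Ω → St α p.r) : Prop :=
  (∀ l c, Measurable fun w => (F w).h l c) ∧ ∀ i l c, Measurable fun w => (F w).snap i l c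

omit [MeasurableSpace Ω] in
theorem nbhd_eq_of_nb (hnb : ∀ w, (N w).nb = nb) (w w' : Ω) (A : Finset α) (k : ℕ) :
    (N w).nbhd A k = (N w').nbhd A k := by
  induction k with
  | zero => rfl
  | succ k ih => simp only [Net.nbhd, ih, hnb]

omit [DecidableEq α] in
theorem measurable_xs (hx : ∀ l u, Measurable fun w => (N w).x l u) (s : Bool) (l u : α) :
    Measurable fun w => (N w).xs s l u := by
  cases s
  · exact (hx l u).neg
  · exact hx l u

variable (hnb : ∀ w, (N w).nb = nb) (hx : ∀ l u, Measurable fun w => (N w).x l u)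
include hnb hx

theorem measurableSet_startOK {F : Ω → α → Fin p.r → ℝ}
    (hF : ∀ l c, Measurable fun w => F w l c) (i : Fin 3) (s : Bool) (L : ℝ) (l : α) :
    MeasurableSet {w | startOK p (N w) i s L (F w) l} := by
  rcases isEmpty_or_nonempty Ω with hΩ | hΩ
  · rw [Set.eq_empty_of_isEmpty {w | startOK p (N w) i s L (F w) l}]; exact MeasurableSet.empty
  obtain ⟨w₀⟩ := hΩ
  have hB : ∀ w, (N w).ball l (p.R i) = (N w₀).ball l (p.R i) := fun w =>
    nbhd_eq_of_nb hnb w w₀ _ _
  simp only [startOK, hB]
  have hherm : ∀ w, IsHerm ((N w).xs s) := fun w a b => by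
    cases s <;> simp [Net.xs, (N w).herm a b]
  refine (measurableSet_valid _ hF (measurable_xs hx s) hherm _).inter ?_
  exact measurableSet_le (((measurable_Phi _ hF (measurable_xs hx s) _ _).sub
    (measurable_Phi _ hF (measurable_xs hx s) _ _)).div_const _) measurable_const

theorem measurableSet_turnOK {F : Ω → α → Fin p.r → ℝ}
    (hF : ∀ l c, Measurable fun w => F w l c) (i : Fin 3) (s : Bool) (L : ℝ) (l : α) :
    MeasurableSet {w | turnOK p (N w) i s L (F w) l} := by
  rcases isEmpty_or_nonempty Ω with hΩ | hΩ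
  · rw [Set.eq_empty_of_isEmpty {w | turnOK p (N w) i s L (F w) l}]; exact MeasurableSet.empty
  obtain ⟨w₀⟩ := hΩ
  have hB : ∀ w, (N w).ball l (p.R i) = (N w₀).ball l (p.R i) := fun w =>
    nbhd_eq_of_nb hnb w w₀ _ _
  simp only [turnOK, hB]
  have hherm : ∀ w, IsHerm ((N w).xs s) := fun w a b => by
    cases s <;> simp [Net.xs, (N w).herm a b]
  refine (measurableSet_valid _ hF (measurable_xs hx s) hherm _).inter ?_
  exact measurableSet_le (measurable_Irow _ hF (measurable_xs hx s) _ _) measurable_const

theorem measurable_killRows {F : Ω → α → Fin p.r → ℝ}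
    (hF : ∀ l c, Measurable fun w => F w l c) (n : ℕ) (l : α) (k : Fin 3 × Bool) (c : Fin p.r) :
    Measurable fun w => killRows p (N w) n (F w) l k c := by
  rcases isEmpty_or_nonempty Ω with hΩ | hΩ
  · exact measurable_of_empty _
  obtain ⟨w₀⟩ := hΩ
  have hB : ∀ w, (N w).ball l (p.R k.1) = (N w₀).ball l (p.R k.1) := fun w =>
    nbhd_eq_of_nb hnb w w₀ _ _
  simp only [killRows, hB]
  exact measurable_m _ hF (measurable_xs hx k.2) _ _ _

omit hnb hx [Fintype α] [DecidableEq α] in
theorem measurableSet_live_eq {F : Ω → α → Fin p.r → ℝ}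
    (hF : ∀ l c, Measurable fun w => F w l c) (l : α) (L : Finset (Fin p.r)) :
    MeasurableSet {w | live p (F w) l = L} := by
  have hA : ∀ c, MeasurableSet {w | p.h0 + Real.sqrt p.η ≤ F w l c} := fun c =>
    measurableSet_le measurable_const (hF l c)
  have : {w | live p (F w) l = L} = ⋂ c : Fin p.r,
      if c ∈ L then {w | p.h0 + Real.sqrt p.η ≤ F w l c} else {w | p.h0 + Real.sqrt p.η ≤ F w l c}ᶜ := by
    ext w
    simp only [Set.mem_ofPred_eq, Set.mem_iInter, Finset.ext_iff, live, Finset.mem_filter,
      Finset.mem_univ, true_and]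
    refine forall_congr' fun c => ?_
    split_ifs with hc <;> simp [hc]
  rw [this]
  refine MeasurableSet.iInter fun c => ?_
  split_ifs
  · exact hA c
  · exact (hA c).compl

theorem measurableSet_canMove {F : Ω → St α p.r} (hF : MSt F) (ω : Seeds α p) (n : Fin p.Nph)
    (l : α) : MeasurableSet {w | canMove p (N w) ω n (F w) l} := by
  have hsplit : {w | canMove p (N w) ω n (F w) l} = {w | ¬ tie p (N w) ω n l}
      ∩ ((⋂ i, ⋂ s, {w | startOK p (N w) i s (p.floor i n) ((F w).snap i) l})
      ∩ ((⋂ i, ⋂ s, {w | turnOK p (N w) i s (p.floor i n) (F w).h l})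
      ∩ ⋃ L ∈ {L : Finset (Fin p.r) | 8 ≤ L.card}, {w | live p (F w).h l = L})) := by
    ext w
    simp [canMove]
  rw [hsplit]
  refine MeasurableSet.inter ?_ (MeasurableSet.inter ?_ (MeasurableSet.inter ?_ ?_))
  · rcases isEmpty_or_nonempty Ω with hΩ | hΩ
    · rw [Set.eq_empty_of_isEmpty {w | ¬ tie p (N w) ω n l}]; exact MeasurableSet.empty
    obtain ⟨w₀⟩ := hΩ
    simp only [tie, show ∀ w, (N w).ball l (2 * p.R 0) = (N w₀).ball l (2 * p.R 0) from fun w =>
      nbhd_eq_of_nb hnb w w₀ _ _]
    exact MeasurableSet.const _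
  · exact MeasurableSet.iInter fun i => MeasurableSet.iInter fun s =>
      measurableSet_startOK hnb hx (hF.2 i) i s _ l
  · exact MeasurableSet.iInter fun i => MeasurableSet.iInter fun s =>
      measurableSet_turnOK hnb hx hF.1 i s _ l
  · exact MeasurableSet.biUnion (Set.to_countable _) fun L _ => measurableSet_live_eq hF.1 l L

theorem measurable_jumpAt {F : Ω → St α p.r} (hF : MSt F) (ω : Seeds α p) (n : Fin p.Nph) (l : α)
    (b : Bool) (c : Fin p.r) : Measurable fun w => jumpAt p (N w) ω n (F w) l b c := by
  classical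
  have key : Measurable fun w =>
      pickDir (live p (F w).h l) (killRows p (N w) n (F w).h l) (ω n l).2 c := by
    have : (fun w => pickDir (live p (F w).h l) (killRows p (N w) n (F w).h l) (ω n l).2 c) =
        fun w => ∑ L : Finset (Fin p.r), if live p (F w).h l = L then
          pickDir L (killRows p (N w) n (F w).h l) (ω n l).2 c else 0 := by
      funext w; simp
    rw [this]
    exact Finset.measurable_sum _ fun L _ => Measurable.ite (measurableSet_live_eq hF.1 l L)
      (MCoord.pickDir L (measurable_killRows hnb hx hF.1 n l) _ c) measurable_const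
  have hm : Measurable fun w => if canMove p (N w) ω n (F w) l then coin b * Real.sqrt p.η *
      pickDir (live p (F w).h l) (killRows p (N w) n (F w).h l) (ω n l).2 c else 0 :=
    Measurable.ite (measurableSet_canMove hnb hx hF ω n l) (key.const_mul
      (coin b * Real.sqrt p.η)) measurable_const
  convert hm using 1
  funext w
  simp only [jumpAt]
  split_ifs <;> simp

theorem mSt_runOn (ω : Seeds α p) (σ : Coins α p) : ∀ (sls : List (Slot α p)) {F : Ω → St α p.r},
    MSt F → MSt fun w => runOn p (N w) ω σ (F w) sls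
  | [], _, hF => hF
  | (m, none) :: sls, F, hF => by
    refine mSt_runOn ω σ sls (F := fun w => step p (N w) ω (F w) (m, none) (σ (m, none)))
      ⟨hF.1, fun i l c => ?_⟩
    by_cases hd : p.len i ∣ (m : ℕ)
    · simpa [step, hd] using hF.1 l c
    · simpa [step, hd] using hF.2 i l c
  | (m, some u) :: sls, F, hF => by
    refine mSt_runOn ω σ sls (F := fun w => step p (N w) ω (F w) (m, some u) (σ (m, some u)))
      ⟨fun l c => ?_, hF.2⟩
    rcases eq_or_ne l u with rfl | hne
    · simp only [step, Function.update_self, Pi.add_apply]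
      exact (hF.1 l c).add (measurable_jumpAt hnb hx hF ω m l _ c)
    · simpa [step, Function.update_of_ne hne] using hF.1 l c

theorem measurableSet_isColour (ω : Seeds α p) (σ : Coins α p) (o : α) (c : Fin p.r) :
    MeasurableSet {w | IsColour p (N w) ω σ o c} := by
  have hF := mSt_runOn hnb hx ω σ (seg p ω 0 p.Nph) (F := fun _ => init p)
    ⟨fun l c => measurable_const, fun i l c => measurable_const⟩
  have hm : ∀ d, Measurable fun w => (stateAt p (N w) ω σ p.Nph).h o d := fun d => hF.1 o d
  have hset : {w | IsColour p (N w) ω σ o c} = (⋂ d, {w | (stateAt p (N w) ω σ p.Nph).h o d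
        ≤ (stateAt p (N w) ω σ p.Nph).h o c}) ∩ ⋂ (hn : 0 < p.Nph), ⋂ d,
      ({w | (stateAt p (N w) ω σ p.Nph).h o d = (stateAt p (N w) ω σ p.Nph).h o c}ᶜ ∪
        {_w | (ω ⟨0, hn⟩ o).2.symm c ≤ (ω ⟨0, hn⟩ o).2.symm d}) := by
    ext w
    simp [IsColour, imp_iff_not_or]
  rw [hset]
  refine MeasurableSet.inter (MeasurableSet.iInter fun d => measurableSet_le (hm d) (hm c)) ?_
  refine MeasurableSet.iInter fun hn => MeasurableSet.iInter fun d => ?_
  exact (measurableSet_eq_fun (hm d) (hm c)).compl.union (MeasurableSet.const _)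

end rule

/-- `Iface.StmtMeas`. -/
theorem measStmt.{u, v} (p : Par) : Iface.StmtMeas.{u, v} p :=
  fun _ _ _ _ _ _ _ _ hnb hx ω σ o c => measurableSet_isColour hnb hx ω σ o c

end Vale.Agent.P078.Local
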