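import Vale.Agent.P078.Local.Def.Rule

/-!
# A formula for the direction space projection
-/

noncomputable section

namespace Vale.Agent.P078.Local

open scoped RealInnerProductSpace

variable {r : ℕ}

/-- Gram–Schmidt projection onto the orthogonal complement of `bs`; division by zero gives zero. -/
def projFn : List (EuclideanSpace ℝ (Fin r)) → EuclideanSpace ℝ (Fin r) → EuclideanSpace ℝ (Fin r)
  | [], v => v
  | b :: bs, v =>
    projFn bs v - (⟪projFn bs b, projFn bs v⟫ / ⟪projFn bs b, projFn bs b⟫) • projFn bs b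

theorem projFn_spec : ∀ (bs : List (EuclideanSpace ℝ (Fin r))) (v : EuclideanSpace ℝ (Fin r)),
    (∀ b ∈ bs, ⟪b, projFn bs v⟫ = 0) ∧
      ∀ x, (∀ b ∈ bs, ⟪b, x⟫ = 0) → ⟪v - projFn bs v, x⟫ = 0
  | [], v => ⟨by simp, fun x _ => by simp [projFn]⟩
  | b :: bs, v => by
    obtain ⟨hu1, hu2⟩ := projFn_spec bs b
    obtain ⟨hw1, hw2⟩ := projFn_spec bs v
    set u := projFn bs b
    set w := projFn bs v
    set t := ⟪u, w⟫ / ⟪u, u⟫ with ht
    have hmem : ∀ b' ∈ bs, ⟪b', w - t • u⟫ = 0 := fun b' hb' => by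
      simp [inner_sub_right, inner_smul_right, hu1 b' hb', hw1 b' hb']
    refine ⟨fun b' hb' => ?_, fun x hx => ?_⟩
    · show ⟪b', w - t • u⟫ = 0
      rcases List.mem_cons.1 hb' with rfl | hb'
      · have h : ⟪b' - u, w - t • u⟫ = 0 := hu2 _ hmem
        rw [inner_sub_left, sub_eq_zero] at h
        rw [h, inner_sub_right, inner_smul_right, ht]
        by_cases hu0 : ⟪u, u⟫ = 0
        · have : u = 0 := inner_self_eq_zero.1 hu0
          simp [this]
        · rw [div_mul_cancel₀ _ hu0, sub_self]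
      · exact hmem b' hb'
    · show ⟪v - (w - t • u), x⟫ = 0
      have h1 := hu2 x fun b' hb' => hx b' (List.mem_cons_of_mem _ hb')
      have h2 := hw2 x fun b' hb' => hx b' (List.mem_cons_of_mem _ hb')
      rw [inner_sub_left, hx b List.mem_cons_self, zero_sub, neg_eq_zero] at h1
      rw [sub_sub_eq_add_sub, add_sub_right_comm, inner_add_left, h2, inner_smul_left, h1]
      simp

/-- The constraints that cut out the directions. -/
def dirRows (L : Finset (Fin r)) (rows : Fin 3 × Bool → Fin r → ℝ) :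
    List (EuclideanSpace ℝ (Fin r)) :=
  (Lᶜ.toList.map fun c => EuclideanSpace.single c (1 : ℝ))
    ++ (WithLp.toLp 2 (fun _ : Fin r => (1 : ℝ)))
      :: ((Finset.univ : Finset (Fin 3 × Bool)).toList.map fun k => WithLp.toLp 2 (rows k))

theorem inner_toLp (f : Fin r → ℝ) (x : EuclideanSpace ℝ (Fin r)) :
    ⟪WithLp.toLp 2 f, x⟫ = ∑ c, x c * f c := by
  simp [PiLp.inner_apply, mul_comm]

theorem mem_dirSpace_iff {L : Finset (Fin r)} {rows : Fin 3 × Bool → Fin r → ℝ}
    {x : EuclideanSpace ℝ (Fin r)} :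
    x ∈ dirSpace L rows ↔ ∀ b ∈ dirRows L rows, ⟪b, x⟫ = 0 := by
  simp only [dirRows, List.forall_mem_append, List.forall_mem_cons, List.forall_mem_map,
    Finset.mem_toList, Finset.mem_compl, Finset.mem_univ, forall_const, inner_toLp, mul_one,
    EuclideanSpace.inner_single_left, map_one, one_mul]
  rfl

theorem starProjection_dirSpace (L : Finset (Fin r)) (rows : Fin 3 × Bool → Fin r → ℝ)
    (v : EuclideanSpace ℝ (Fin r)) :
    (dirSpace L rows).starProjection v = projFn (dirRows L rows) v :=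
  Submodule.eq_starProjection_of_mem_of_inner_eq_zero
    (mem_dirSpace_iff.2 (projFn_spec _ v).1)
    fun x hx => (projFn_spec _ v).2 x (mem_dirSpace_iff.1 hx)

end Vale.Agent.P078.Local
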